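import Vale.Agent.P073.Main

/-!
# P073: almost affine Sobolev homeomorphisms are diffeomorphically approximable

Definitions: `Vale.Agent.P073.Defs`.
-/

namespace Vale.Agent.P073

open MeasureTheory Metric Set Function Filter
open scoped ContDiff Topology ENNReal NNReal

theorem isAlmostAffine_of_hasStrictFDerivAt {E : Type*} [NormedAddCommGroup E] [NormedSpace ℝ E]
    [Nontrivial E] {η : ℝ} (hη : 0 < η) {Ω : Set E} (hΩ : IsOpen Ω) {f : E → E}
    (h : ∀ a ∈ Ω, ∃ L : E ≃L[ℝ] E, HasStrictFDerivAt f (L : E →L[ℝ] E) a) :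
    IsAlmostAffine η Ω f := by
  intro a ha
  obtain ⟨L, hL⟩ := h a ha
  have hN : 0 < ‖(L.symm : E →L[ℝ] E)‖ := L.norm_symm_pos
  have hc : 0 < η / ‖(L.symm : E →L[ℝ] E)‖ := div_pos hη hN
  obtain ⟨δ, hδ, hball⟩ := Metric.eventually_nhds_iff.1
    ((Asymptotics.isLittleO_iff.1 hL.isLittleO hc).and
      ((continuous_fst.tendsto (a, a)).eventually (hΩ.mem_nhds ha)))
  refine ⟨δ / 3, by positivity, fun z hz => ?_, fun x hx r hr => ⟨L, f x, fun y hy => ?_⟩⟩
  · rw [mem_closedBall] at hz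
    exact (hball (y := (z, a)) (by rw [Prod.dist_eq, dist_self]; exact max_lt (by linarith) hδ)).2
  · rw [mem_closedBall] at hx hy
    have h1 := (hball (y := (y, x)) (by
      rw [Prod.dist_eq]
      exact max_lt ((dist_triangle y x a).trans_lt (by linarith [hr.2])) (by linarith))).1
    simp only [ContinuousLinearEquiv.coe_coe] at h1
    rw [← le_div_iff₀ hN, sub_add_eq_sub_sub]
    refine h1.trans ?_
    rw [div_mul_eq_mul_div]
    refine div_le_div_of_nonneg_right ?_ hN.le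
    exact mul_le_mul_of_nonneg_left (by rwa [← dist_eq_norm]) hη.le

theorem isAlmostAffine_add_lipschitz {E : Type*} [NormedAddCommGroup E] [NormedSpace ℝ E]
    [Nontrivial E] {η : ℝ≥0} {Ω : Set E} (hΩ : IsOpen Ω) {φ : E → E} (hφ : LipschitzWith η φ) :
    IsAlmostAffine η Ω fun x => x + φ x := by
  intro a ha
  obtain ⟨δ, hδ, hball⟩ := Metric.isOpen_iff.1 hΩ a ha
  refine ⟨δ / 3, by positivity, (closedBall_subset_ball (by linarith)).trans hball,
    fun x _ r _ => ⟨ContinuousLinearEquiv.refl ℝ E, x + φ x, fun y hy => ?_⟩⟩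
  have h1 : ‖(ContinuousLinearEquiv.refl ℝ E).symm.toContinuousLinearMap‖ = 1 :=
    ContinuousLinearMap.norm_id
  rw [h1, mul_one]
  simp only [ContinuousLinearEquiv.refl_apply]
  rw [show y + φ y - (x + φ x + (y - x)) = φ y - φ x by abel, ← dist_eq_norm]
  exact (hφ.dist_le_mul y x).trans (mul_le_mul_of_nonneg_left hy η.coe_nonneg)

end Vale.Agent.P073

namespace Vale.Agent.Results.P073.AlmostAffine

open MeasureTheory Metric Set Vale.Agent.P073
open scoped NNReal ENNReal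

theorem result : ∀ n : ℕ, 0 < n →
    let E := EuclideanSpace ℝ (Fin n)
    ∃ η : ℝ≥0, 0 < η ∧
      (∀ (Ω Λ : Set E), IsOpen Ω → IsConnected Ω → Bornology.IsBounded Ω →
        IsOpen Λ → Bornology.IsBounded Λ →
        ∀ f g : E → E, BijOn f Ω Λ → InvOn g f Ω Λ → ContinuousOn f Ω → ContinuousOn g Λ →
        ∀ p : ℝ≥0∞, 1 ≤ p → p ≠ ⊤ → ∀ G : E → E →L[ℝ] E, HasSobolevDeriv Ω p f G →
          IsAlmostAffine η Ω f → IsDiffeoApproximable Ω Λ p f G) ∧
      (∀ (Ω : Set E) (f : E → E), IsOpen Ω →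
        (∀ a ∈ Ω, ∃ L : E ≃L[ℝ] E, HasStrictFDerivAt f (L : E →L[ℝ] E) a) →
          IsAlmostAffine η Ω f) ∧
      (∀ (Ω : Set E) (φ : E → E), IsOpen Ω → LipschitzWith η φ →
          IsAlmostAffine η Ω fun x => x + φ x) := by
  intro n hn E
  have : Nonempty (Fin n) := ⟨⟨0, hn⟩⟩
  have hC := mollConst_nonneg (E := E)
  refine ⟨⟨1 / (16 * (mollConst E + 2)), by positivity⟩, ?_, ?_, ?_, ?_⟩
  · exact NNReal.coe_pos.1 (show (0 : ℝ) < 1 / (16 * (mollConst E + 2)) by positivity)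
  · exact fun Ω Λ h1 h2 h3 h4 h5 f g h6 h7 h8 h9 p h10 h11 G h12 h13 =>
      isApproximable_of_almostAffine h1 h2 h3 h4 h5 h6 h7 h8 h9 h10 h11 h12 h13
  · exact fun Ω f hΩ h => isAlmostAffine_of_hasStrictFDerivAt
      (show (0 : ℝ) < 1 / (16 * (mollConst E + 2)) by positivity) hΩ h
  · exact fun Ω φ hΩ h => isAlmostAffine_add_lipschitz hΩ h

end Vale.Agent.Results.P073.AlmostAffine
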