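import Vale.Agent.P073.Cone.Inj

/-!
# P073: Sobolev homeomorphisms with derivative locally in a cone of invertible maps are
diffeomorphically approximable

Definitions: `Vale.Agent.P073.Defs`, `Vale.Agent.P073.Cone.Defs`.
-/

namespace Vale.Agent.P073

open MeasureTheory Metric Set
open scoped RealInnerProductSpace

theorem isConeLike_of_deltaMonotone {E : Type*} [NormedAddCommGroup E] [InnerProductSpace ℝ E]
    [MeasureSpace E] [OpensMeasurableSpace E] {Ω : Set E} (hΩ : IsOpen Ω) {G : E → E →L[ℝ] E}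
    {c : ℝ} (hc : 0 < c) (h : ∀ x ∈ Ω, ∀ h : E, c * ‖G x‖ * ‖h‖ ^ 2 ≤ ⟪h, G x h⟫) :
    IsConeLike Ω G := by
  intro a ha
  obtain ⟨R, hR, hsub⟩ := Metric.isOpen_iff.1 hΩ a ha
  refine ⟨R, hR, c, hc, hsub, fun k => ?_⟩
  by_cases hk : k = 0
  · exact ⟨0, by simp, Filter.Eventually.of_forall fun x => by simp [hk]⟩
  refine ⟨‖k‖⁻¹ • k, (norm_smul_inv_norm hk).le, ?_⟩
  filter_upwards [ae_restrict_mem measurableSet_ball] with x hx
  rw [real_inner_smul_left, le_inv_mul_iff₀ (norm_pos_iff.2 hk)]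
  nlinarith [h x (hsub hx) k]

end Vale.Agent.P073

namespace Vale.Agent.Results.P073.ConeDerivative

open MeasureTheory Metric Set Vale.Agent.P073
open scoped ENNReal RealInnerProductSpace

theorem result : ∀ n : ℕ, 0 < n →
    let E := EuclideanSpace ℝ (Fin n)
    (∀ (Ω Λ : Set E), IsOpen Ω → IsConnected Ω → Bornology.IsBounded Ω →
      IsOpen Λ → Bornology.IsBounded Λ →
      ∀ f g : E → E, BijOn f Ω Λ → InvOn g f Ω Λ → ContinuousOn f Ω → ContinuousOn g Λ →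
      ∀ p : ℝ≥0∞, 1 ≤ p → p ≠ ⊤ → ∀ G : E → E →L[ℝ] E, HasSobolevDeriv Ω p f G →
        IsConeLike Ω G → IsDiffeoApproximable Ω Λ p f G) ∧
      (∀ (Ω : Set E) (G : E → E →L[ℝ] E) (c : ℝ), IsOpen Ω → 0 < c →
        (∀ x ∈ Ω, ∀ h : E, c * ‖G x‖ * ‖h‖ ^ 2 ≤ ⟪h, G x h⟫) → IsConeLike Ω G) := by
  intro n hn E
  have : Nonempty (Fin n) := ⟨⟨0, hn⟩⟩
  exact ⟨fun Ω Λ h1 h2 h3 h4 h5 f g h6 h7 h8 h9 p h10 h11 G h12 h13 =>
      isApproximable_of_coneLike h1 h2 h3 h4 h5 h6 h7 h8 h9 h10 h11 h12 h13,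
    fun Ω G c hΩ hc h => isConeLike_of_deltaMonotone hΩ hc h⟩

end Vale.Agent.Results.P073.ConeDerivative
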