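import Vale.Agent.P073.Tame.Base

/-!
# P073: shears and their compositions with bi-Lipschitz maps are diffeomorphically approximable

Definitions: `Vale.Agent.P073.Defs`, `Vale.Agent.P073.Tame.Defs`.
-/

namespace Vale.Agent.Results.P073.ShearComposite

open MeasureTheory Metric Set Vale.Agent.P073
open scoped ENNReal

theorem result : ∀ n : ℕ, 0 < n →
    let E := EuclideanSpace ℝ (Fin n)
    ∀ (Ω Λ : Set E), IsOpen Ω → IsConnected Ω → Bornology.IsBounded Ω →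
      IsOpen Λ → Bornology.IsBounded Λ → ∀ p : ℝ≥0∞, 1 ≤ p → p ≠ ⊤ →
      (∀ f g : E → E, BijOn f Ω Λ → InvOn g f Ω Λ → ContinuousOn f Ω → ContinuousOn g Λ →
        ∀ e : E, e ≠ 0 → (∀ x ∈ Ω, ∃ a : ℝ, f x = x + a • e) →
        ∀ G : E → E →L[ℝ] E, HasSobolevDeriv Ω p f G → IsDiffeoApproximable Ω Λ p f G) ∧
      (∀ h : E → E, IsTame h → ∀ (f : E → E) (G : E → E →L[ℝ] E),
        HasSobolevDeriv (h '' Ω) p f G → IsDiffeoApproximable (h '' Ω) Λ p f G →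
        ∃ G', HasSobolevDeriv Ω p (f ∘ h) G' ∧ IsDiffeoApproximable Ω Λ p (f ∘ h) G') := by
  intro n hn E Ω Λ h1 h2 h3 h4 h5 p h6 h7
  have : Nonempty (Fin n) := ⟨⟨0, hn⟩⟩
  exact ⟨fun f g a1 a2 a3 a4 e he hs G hG =>
      isApproximable_of_shear h1 h2 h3 h4 h5 a1 a2 a3 a4 h6 h7 hG he hs,
    fun h hh f G hS happ => exists_approximable_comp hh.isGood h1 h3 h6 h7 hS happ⟩

end Vale.Agent.Results.P073.ShearComposite
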